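import Vale.Agent.P214.BDIM.Props
import Vale.Agent.P214.BINST.Ker
import Vale.Agent.P214.BINST.Rad

/-!
# P214, target B, block [B5-PT]: the active reference of one window

`Fc` : the facts on one sequence which are used.  `Fc.act` : on scales `[ta, tb]` well inside window
`j` the reference of the window is active (`BDIM.Act`).
-/

open Set Filter Topology MeasureTheory Metric
open scoped RealInnerProductSpace ENNReal ContDiff

set_option linter.all false

namespace Vale.Agent.P214.BPT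

open WIN FM STR BINST
open INST (Ker)
open WSEQ (th)
open BSEQ (Exps WSeq LocB)

variable {m n Q : ℕ} {E : Type*} [NormedAddCommGroup E] [InnerProductSpace ℝ E]
  [FiniteDimensional ℝ E] [MeasurableSpace E] [BorelSpace E]
variable {T : Submodule ℝ E} {F : Frame m n T} {ν : Measure E} {P : E → E →L[ℝ] E}
  {X : Exps} {C ε : ℝ}

/-- the facts on one sequence which are used -/
structure Fc (k : ℝ → ℝ) (Ck η₀ b A τ : ℝ) (P : E → E →L[ℝ] E)
    (S : WSeq m n Q T F ν X C ε) : Prop where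
  ctx : Ctx P τ S
  eps_le : ε ≤ η₀
  η₀_pos : 0 < η₀
  b_pos : 0 < b
  b_le : b ≤ 1
  A_one : 1 ≤ A
  Ck_one : 1 ≤ Ck
  win : ∀ j t, Tr S (j + 1) ≤ t → t ≤ S.r j →
    Adm T (wr S j) η₀ (A * t ^ (b - 1)) (tube S j) ∧ ODEW.Slp T (wr S j) 0 (A * t ^ (b - 1)) t
  mini : ∀ j, MinimalOver T (wr S j) (ball 0 (S.r j * (1 - 5 * th (S.h j))))
  sup : ∀ j, ∀ᵐ y ∂ν, T.starProjection y ∈ ball (0:E) (S.r j * (1 - 17 / 2 * th (S.h j))) →
      ‖FV.co T y - wr S j y‖ ≤ S.r j * S.h j ^ (2 / 5 : ℝ)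
  cyl : ∀ j, CylF m T (wr S j) (tube S j) (Gr S j) (2 * (S.r j * S.h j ^ (2 / 5 : ℝ)))
      (fmeas T (wr S j) (tube S j) ν) (fP T (wr S j) (tube S j) P)
  num : ∀ j, NumW S j
  ker : ∀ j t, S.r j * S.h j ^ (2 * X.c₅) ≤ t →
    (t ≤ S.r j * (1 - 9 * th (S.h j)) →
      INST.Hw m T ν k (tube S j) (wr S j) t
        ≤ Ck * t ^ 2 * STR.hN m T (wr S j) ν (t * (1 + S.h j ^ (1 / 4 : ℝ)))) ∧
    (∀ d, 4 * S.h j ^ (1 / 4 : ℝ) ≤ d → d ≤ 1 / 2 →
      t * (1 + d) ≤ S.r j * (1 - 17 / 2 * th (S.h j)) →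
      STR.hN m T (wr S j) ν t
        ≤ Ck * d⁻¹ ^ 3 * (t ^ 2)⁻¹ * INST.Hw m T ν k (tube S j) (wr S j) (t * (1 + d)))

/-- all the facts for small `ε` -/
theorem ev_fc {k k' K : ℝ → ℝ} {B : ℝ} (hk : Ker k k' K B) {η₀ : ℝ} (hη : 0 < η₀)
    (hη0 : η₀ ≤ eps0) (hR : RefsStmt E m n Q) (hC : CylStmt E m n Q) :
    ∃ Ck : ℝ, 1 ≤ Ck ∧ ∀ (X : Exps) (C : ℝ), ∃ b₀ > 0, ∀ b, 0 < b → b ≤ b₀ → b ≤ 1 →
      ∃ A₀ : ℝ, 1 ≤ A₀ ∧ ∀ A, A₀ ≤ A → ∃ ε₀ > 0, ∀ (T : Submodule ℝ E) (F : Frame m n T)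
      (ν : Measure E) (P : E → E →L[ℝ] E) (ε τ : ℝ) (S : WSeq m n Q T F ν X C ε), Ctx P τ S →
      ε ≤ ε₀ → Fc k Ck η₀ b A τ P S := by
  obtain ⟨Ck, hCk, hker⟩ := kerStmt hk hR
  refine ⟨Ck, hCk, fun X C => ?_⟩
  obtain ⟨b₀, hb₀, h1⟩ := ((((hR η₀ hη hη0).and (hC η₀ hη hη0)).and (ev_wd1 hη hη0 hR)).and hker) X C
  refine ⟨b₀, hb₀, fun b hb hbb hb1 => ?_⟩
  obtain ⟨A₀, hA₀, h2⟩ := h1 b hb hbb
  refine ⟨A₀, hA₀, fun A hA => ?_⟩
  obtain ⟨ε₀, hε₀, h3⟩ := h2 A hA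
  refine ⟨min ε₀ η₀, lt_min hε₀ hη, fun T F ν P ε τ S hctx hε => ?_⟩
  obtain ⟨⟨⟨e1, e2⟩, e3⟩, e4⟩ := h3 T F ν P ε τ S hctx (hε.trans (min_le_left _ _))
  exact
    { ctx := hctx
      eps_le := hε.trans (min_le_right _ _)
      η₀_pos := hη
      b_pos := hb
      b_le := hb1
      A_one := hA₀.trans hA
      Ck_one := hCk
      win := fun j t ht1 ht2 => by
        obtain ⟨-, -, -, -, -, h⟩ := e1 j
        obtain ⟨-, h4, h5, -⟩ := h t ht1 ht2
        exact ⟨h4, h5⟩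
      mini := fun j => (e1 j).2.2.2.2.1
      sup := fun j => (e2 j).1
      cyl := fun j => (e2 j).2.1
      num := fun j => (e3 j).1
      ker := fun j t ht => e4 j t ht }

/-- the cylindrical stationarity over a smaller base -/
lemma cylF_mono {m : ℕ} {T : Submodule ℝ E} {w : E → E} {h₁ h : ℝ} {G G' : Set E}
    {ν : Measure E} {P : E → E →L[ℝ] E} (hC : CylF m T w h₁ G h ν P) (hG' : IsOpen G')
    (hGG : G' ⊆ G) : CylF m T w h₁ G' h ν P where
  fin := hC.fin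
  meas := hC.meas
  proj := hC.proj
  dimT := hC.dimT
  isOpen := hG'
  slab := by
    filter_upwards [hC.slab] with y hy hyG
    exact hy (hGG hyG)
  lt := hC.lt
  stat := fun Z hZ hB => hC.stat Z hZ (by
    obtain ⟨L, hL, hLG, hZL⟩ := hB
    exact ⟨L, hL, hLG.trans hGG, hZL⟩)

namespace Fc

variable {k : ℝ → ℝ} {Ck η₀ b A τ : ℝ} {S : WSeq m n Q T F ν X C ε}

section

variable (H : Fc k Ck η₀ b A τ P S) (j : ℕ)

include H

lemma hpos : 0 < S.h j := (H.num j).hpos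

lemma hle : S.h j ≤ 1 := (H.num j).h1.trans (by norm_num)

lemma rpos : 0 < S.r j := (H.num j).rpos

lemma c₅_pos : 0 < X.c₅ := H.ctx.ok.c₅_pos

lemma c₅_le' : X.c₅ ≤ 1 / 2400 := H.ctx.ok.c₅_le

lemma pw {p q : ℝ} (h : q ≤ p) : S.h j ^ p ≤ S.h j ^ q :=
  Real.rpow_le_rpow_of_exponent_ge (H.hpos j) (H.hle j) h

/-- the lower end of the window -/
lemma low_le {s : ℝ} (hs : 4 * S.r (j + 1) ≤ s) : S.r j * S.h j ^ X.c₅ ≤ s := by
  have h1 := (S.nxt j).r_ge
  have h2 := S.r_pos (j + 1)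
  linarith

lemma low_ker {s : ℝ} (hs : S.r j * S.h j ^ X.c₅ ≤ s) : S.r j * S.h j ^ (2 * X.c₅) ≤ s := by
  refine le_trans ?_ hs
  have := H.rpos j
  have := H.pw j (p := 2 * X.c₅) (q := X.c₅) (by have := H.c₅_pos; linarith)
  gcongr

/-- heights inside the window -/
lemma h_gt {s : ℝ} (h1 : S.r (j + 1) < s) (h2 : s ≤ S.r j / 8 * 7) :
    S.h j ^ (1 + X.c) < hN m T (wr S j) ν s := by
  refine (S.nxt j).h_gt s h1 (h2.trans ?_)
  have := (H.num j).th_le
  have := H.rpos j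
  nlinarith

lemma h_up {s : ℝ} (h1 : S.r j * S.h j ^ X.c₅ ≤ s) (h2 : s ≤ S.r j / 8 * 7) :
    hN m T (wr S j) ν s ≤ S.h j ^ (1 - X.e') := by
  refine (S.nxt j).top s h1 (h2.trans ?_)
  have := (H.num j).th_le
  have := H.rpos j
  nlinarith

/-- sup of the heights in terms of the scale -/
lemma sup_s {s : ℝ} (h1 : S.r j * S.h j ^ X.c₅ ≤ s) (h2 : s ≤ S.r j / 8 * 7) :
    ∀ᵐ y ∂ν, ‖T.starProjection y‖ < s →
      ‖KMS.rel T (wr S j) y‖ ≤ s * S.h j ^ (2 / 5 - X.c₅ : ℝ) := by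
  filter_upwards [H.sup j] with y hy hys
  have hr := H.rpos j
  have hh := H.hpos j
  have h3 := (H.num j).th_le
  have h4 := hy (by
    rw [mem_ball_zero_iff]
    refine lt_of_lt_of_le hys (h2.trans ?_)
    nlinarith)
  refine h4.trans ?_
  have e1 : S.h j ^ (2 / 5 : ℝ) = S.h j ^ X.c₅ * S.h j ^ (2 / 5 - X.c₅ : ℝ) := by
    rw [← Real.rpow_add hh]; congr 1; ring
  rw [e1, ← mul_assoc]
  have := Real.rpow_pos_of_pos hh (2 / 5 - X.c₅ : ℝ)
  gcongr

end

/-- **the active reference of window `j`** -/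
theorem act (H : Fc k Ck η₀ b A τ P S) (hn : 0 < n) {j : ℕ} {η ta tb : ℝ}
    (h1 : 4 * S.r (j + 1) ≤ ta) (hab : ta ≤ tb) (h2 : 8 * tb ≤ S.r j)
    (hη : S.h j ^ (1 / 5 : ℝ) ≤ η) (hη0 : S.h j ^ (1 / 5 : ℝ) ≤ η₀)
    (hκ : A * ta ^ (b - 1) * tb ≤ η) :
    BDIM.Act m n Q F ν P (3 / 4) η₀ η (S.u (j + 1)) (tube S j) (A * ta ^ (b - 1)) ta tb := by
  have hr := H.rpos j
  have hr1 := S.r_pos (j + 1)
  have hh := H.hpos j
  have hh1 := H.hle j
  have hθ := (H.num j).th_le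
  have hθ0 := (H.num j).th_pos
  have hta : 0 < ta := by linarith
  have htb : 0 < tb := by linarith
  have hok := H.ctx.ok
  have hc5 := H.c₅_le'
  have hc5p := H.c₅_pos
  have hTr := (H.num j).Tr_le
  have hA0 : 0 < A := by linarith [H.A_one]
  -- scales
  have sl : ∀ s, ta ≤ s → S.r j * S.h j ^ X.c₅ ≤ s := fun s hs => H.low_le j (h1.trans hs)
  have sr : ∀ s, ta ≤ s → S.r (j + 1) < s := fun s hs => by linarith
  have su : ∀ s, s ≤ tb → s ≤ S.r j / 8 * 7 := fun s hs => by linarith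
  have sj : ∀ s, s ≤ tb → s ≤ S.r j := fun s hs => by linarith
  have sθ : ∀ s, s ≤ tb → s ≤ S.r j * (1 - 5 * th (S.h j)) := fun s hs => by
    have : S.r j * th (S.h j) ≤ S.r j * (1 / 120) := by gcongr
    nlinarith
  have s2 : 2 * tb ≤ S.r j * (1 - 9 * th (S.h j)) := by
    have : S.r j * th (S.h j) ≤ S.r j * (1 / 120) := by gcongr
    nlinarith
  have hlow : ∀ s, ta ≤ s → s ≤ tb → S.h j ^ (1 + X.c) < hN m T (wr S j) ν s :=
    fun s hs hs' => H.h_gt j (sr s hs) (su s hs')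
  have hup : ∀ s, ta ≤ s → s ≤ tb → hN m T (wr S j) ν s ≤ S.h j ^ (1 - X.e') :=
    fun s hs hs' => H.h_up j (sl s hs) (su s hs')
  have hpos : ∀ s, ta ≤ s → s ≤ tb → 0 < hN m T (wr S j) ν s := fun s hs hs' =>
    (Real.rpow_pos_of_pos hh _).trans (hlow s hs hs')
  have he' : X.e' ≤ 1 / 800 := by have := hok.e'_le; have := hok.c_le; linarith
  have hle : ∀ s, ta ≤ s → s ≤ tb → hN m T (wr S j) ν s ≤ S.h j ^ (1 / 5 : ℝ) :=
    fun s hs hs' => (hup s hs hs').trans (H.pw j (by linarith))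
  have hle1 : ∀ s, ta ≤ s → s ≤ tb → hN m T (wr S j) ν s ≤ 1 := fun s hs hs' =>
    (hle s hs hs').trans (Real.rpow_le_one hh.le hh1 (by norm_num))
  have hη₀ := H.η₀_pos
  -- lower bounds of powers of the heights
  have hpw : ∀ s, ta ≤ s → s ≤ tb → ∀ p : ℝ, 0 ≤ p →
      S.h j ^ ((1 + X.c) * p) ≤ hN m T (wr S j) ν s ^ p := by
    intro s hs hs' p hp
    rw [Real.rpow_mul hh.le]
    exact Real.rpow_le_rpow (Real.rpow_nonneg hh.le _) (hlow s hs hs').le hp
  have hc := hok.c_le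
  have hc0 := hok.c_pos
  have hsup : ∀ s, ta ≤ s → s ≤ tb → ∀ᵐ y ∂ν, ‖T.starProjection y‖ < s →
      ‖KMS.rel T (wr S j) y‖ ≤ s * S.h j ^ (2 / 5 - X.c₅ : ℝ) :=
    fun s hs hs' => H.sup_s j (sl s hs) (su s hs')
  have hslab : 2 * (S.r j * S.h j ^ (2 / 5 : ℝ)) ≤ η * ta := by
    have e1 : S.h j ^ (2 / 5 : ℝ) ≤ S.h j ^ X.c₅ * S.h j ^ (1 / 5 : ℝ) := by
      rw [← Real.rpow_add hh]
      exact H.pw j (by linarith)
    have h3 := (S.nxt j).r_ge
    calc 2 * (S.r j * S.h j ^ (2 / 5 : ℝ)) ≤ 2 * (S.r j * (S.h j ^ X.c₅ * S.h j ^ (1 / 5 : ℝ))) := by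
          gcongr
      _ = 2 * ((S.r j * S.h j ^ X.c₅) * S.h j ^ (1 / 5 : ℝ)) := by ring
      _ ≤ 2 * (S.r (j + 1) * η) := by
          have := Real.rpow_nonneg hh.le (1 / 5 : ℝ)
          gcongr
      _ ≤ η * ta := by
          have : 0 ≤ η := (Real.rpow_nonneg hh.le (1 / 5 : ℝ)).trans hη
          nlinarith
  have hwin : ∀ s, ta ≤ s → s ≤ tb → Tr S (j + 1) ≤ s ∧ s ≤ S.r j := fun s hs hs' =>
    ⟨by linarith, sj s hs'⟩
  have hκs : ∀ s, ta ≤ s → s ≤ tb → A * s ^ (b - 1) ≤ A * ta ^ (b - 1) := by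
    intro s hs hs'
    have hb := H.b_le
    have : s ^ (b - 1) ≤ ta ^ (b - 1) := Real.rpow_le_rpow_of_nonpos hta hs (by linarith)
    gcongr
  refine
    { adm := (H.win j ta (hwin ta le_rfl hab).1 (hwin ta le_rfl hab).2).1
      cyl := ⟨_, ?_, cylF_mono (H.cyl j) isOpen_ball (ball_subset_ball s2)⟩
      minimal := ?_
      curv := hκ
      slp := ?_
      pos := hpos
      le := fun s hs hs' => (hle s hs hs').trans hη
      at_ := ?_
      thin := ?_
      tube := ?_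
      tube_le := ?_
      coarse := ?_ }
  · -- the slab
    have h3 : S.h j ^ (2 / 5 : ℝ) ≤ 1 := Real.rpow_le_one hh.le hh1 (by norm_num)
    have h4 := (H.num j).rle
    have h5 := Real.rpow_nonneg hh.le (2 / 5 : ℝ)
    nlinarith
  · intro y hy
    refine H.mini j y (ball_subset_ball ?_ hy)
    nlinarith
  · intro t ht ht'
    have h3 := (H.win j t (hwin t ht ht').1 (hwin t ht ht').2).2
    have h4 := hκs t ht ht'
    refine ⟨fun Y hY => (h3.le Y hY).trans ?_, h3.flat.mono h4 le_rfl⟩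
    have : 0 < t := by linarith
    gcongr
  · intro s hs hs'
    have hs0 : 0 < s := by linarith
    have hsr := sj s hs'
    have hNx := S.nxt j
    have hNp := hpos s hs hs'
    have hN1 := hle1 s hs hs'
    refine
      { smooth := hNx.smooth
        val := fun a => ((S.refe (j + 1)).val a).trans ?_
        small := fun a i hi hi' x => (hNx.small a i hi hi' x).trans ?_
        exact := fun a x hx => hNx.exact a x (hx.trans_le (sθ s hs'))
        weak := ?_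
        l2 := ?_
        slab := ?_
        mass := ⟨S.u j, fun a => (S.refe j).smooth a, ?_⟩ }
    · have := sr s hs
      have := H.eps_le
      have := H.ctx.ε_pos
      have : S.r (j + 1) ≤ s := by linarith
      gcongr
    · have h3 := BTWO.scaled_mono hs0 hsr hi
      have := H.eps_le
      have := H.ctx.ε_pos
      have h4 : 0 ≤ S.r j * (S.r j)⁻¹ ^ i := by positivity
      calc ε * (S.r j * (S.r j)⁻¹ ^ i) ≤ η₀ * (S.r j * (S.r j)⁻¹ ^ i) := by gcongr
        _ ≤ _ := by gcongr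
    · intro φ M hφ
      have h3 := BTWO.tstR_resc hφ hn hs0 hsr (sθ s hs')
      have h4 := hNx.weak φ _ h3
      simp only [sub_zero]
      have hM : 0 ≤ M := by
        have h5 := hφ.bd ⟨0, hn⟩ 0 (Nat.zero_le _) 0
        rw [pow_zero, mul_one] at h5
        exact (norm_nonneg _).trans h5
      have h5 : (S.r j / s) ^ (m + 1 + sW m) * S.h j ^ (1 - X.e) ≤
          S.h j ^ ((1 + X.c) * (3 / 4)) := by
        refine BTWO.ratio_pow_le hs0 hsr hh hh1 (sl s hs) (q := m + 1 + sW m) ?_ le_rfl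
        have h6 := hok.c₅_small
        have h7 : ((m + 1 + sW m : ℕ) : ℝ) = 5 * m + 17 := by
          unfold sW; push_cast; ring
        rw [h7]
        have h8 : (5 * (m:ℝ) + 17) * X.c₅ ≤ (5 * m + 20) * X.c₅ := by
          have : (0:ℝ) ≤ m := Nat.cast_nonneg m
          gcongr
          norm_num
        linarith
      have h6 := hpw s hs hs' (3 / 4) (by norm_num)
      have e1 : S.r j ^ (m + 1) * S.h j ^ (1 - X.e) * (M * (S.r j / s) ^ sW m) =
          s ^ (m + 1) * ((S.r j / s) ^ (m + 1 + sW m) * S.h j ^ (1 - X.e)) * M := by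
        rw [pow_add (S.r j / s), div_pow (S.r j) s (m + 1)]
        field_simp
      rw [e1] at h4
      refine h4.trans ?_
      have := h5.trans h6
      gcongr
      exact this
    · simp only [sub_zero]
      have e1 : {y : E | ‖F.xc y‖ < s} = Skel.cylSet T 0 s := by
        ext y
        simp only [mem_setOf_eq, Skel.cylSet, mem_ball_zero_iff, STR.norm_xc]
      rw [e1]
      have e2 : ∫ y in Skel.cylSet T 0 s, ‖KMS.rel T (F.lift (S.u (j + 1))) y‖ ^ 2 ∂ν =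
          s ^ (m + 2) * hN m T (wr S j) ν s := by
        unfold hN hE BINST.wr
        field_simp
      rw [e2]
      have : hN m T (wr S j) ν s ≤ hN m T (wr S j) ν s ^ (3 / 4 : ℝ) := by
        conv_lhs => rw [← Real.rpow_one (hN m T (wr S j) ν s)]
        exact Real.rpow_le_rpow_of_exponent_ge hNp hN1 (by norm_num)
      gcongr
      exact this
    · filter_upwards [hsup s hs hs'] with y hy hys
      simp only [sub_zero] at hys ⊢
      have h3 := hy (by rwa [STR.norm_xc] at hys)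
      refine h3.trans ?_
      rw [mul_comm]
      have h4 : S.h j ^ (2 / 5 - X.c₅ : ℝ) ≤ η₀ := by
        exact (H.pw j (by linarith)).trans hη0
      gcongr
    · intro ψ M hψ hs0' hψM
      simp only [sub_zero]
      have hM : 0 ≤ M := (abs_nonneg _).trans (hψM 0)
      have h3 := hNx.mass ψ M hψ (fun x hx => hs0' x ((sθ s hs').trans hx)) hψM
      refine h3.trans ?_
      have h5 : (S.r j / s) ^ m * S.h j ^ (1 / 2 - X.e) ≤
          S.h j ^ ((1 + X.c) * ((3 / 4) / 2)) := by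
        refine BTWO.ratio_pow_le hs0 hsr hh hh1 (sl s hs) (q := m) ?_ le_rfl
        have h6 := hok.c₅_small
        have h9 : X.e ≤ X.c₅ := by
          have := hok.e_le
          have := hok.β_le
          nlinarith
        nlinarith
      have h6 := hpw s hs hs' ((3 / 4) / 2) (by norm_num)
      calc S.r j ^ m * S.h j ^ (1 / 2 - X.e) * M =
          s ^ m * ((S.r j / s) ^ m * S.h j ^ (1 / 2 - X.e)) * M := by
            rw [div_pow]; field_simp
        _ ≤ s ^ m * hN m T (wr S j) ν s ^ ((3 / 4) / 2 : ℝ) * M := by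
            have := h5.trans h6
            gcongr
  · intro s hs hs'
    filter_upwards [hsup s hs hs'] with y hy hys
    refine (hy hys).trans ?_
    have h6 := hpw s hs hs' (1 / 3) (by norm_num)
    have h7 : S.h j ^ (2 / 5 - X.c₅ : ℝ) ≤ S.h j ^ ((1 + X.c) * (1 / 3)) := H.pw j (by linarith)
    have : 0 < s := by linarith
    have := h7.trans h6
    gcongr
    exact this
  · intro s hs hs'
    have h3 : hN m T (wr S j) ν s ^ (1 / 4 : ℝ) ≤ S.h j ^ (1 / 5 : ℝ) := by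
      calc hN m T (wr S j) ν s ^ (1 / 4 : ℝ) ≤ (S.h j ^ (1 - X.e')) ^ (1 / 4 : ℝ) :=
            Real.rpow_le_rpow (hpos s hs hs').le (hup s hs hs') (by norm_num)
        _ = S.h j ^ ((1 - X.e') * (1 / 4)) := by rw [← Real.rpow_mul hh.le]
        _ ≤ _ := H.pw j (by linarith)
    have h4 := sj s hs'
    have h5 : 0 ≤ hN m T (wr S j) ν s ^ (1 / 4 : ℝ) := Real.rpow_nonneg (hpos s hs hs').le _
    show s * hN m T (wr S j) ν s ^ (1 / 4 : ℝ) ≤ S.r j * S.h j ^ (1 / 5 : ℝ)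
    gcongr
  · have := (H.num j).tube_le
    have := (H.num j).Tr_pos
    linarith
  · intro t ht ht'
    filter_upwards [(H.cyl j).slab] with Y hY hYt
    have h3 := hY (by
      show T.starProjection Y ∈ ball (0:E) _
      rw [mem_ball_zero_iff]
      exact lt_of_lt_of_le hYt ((by linarith : 2 * t ≤ 2 * tb).trans s2))
    refine h3.trans (hslab.trans ?_)
    have : 0 ≤ η := (Real.rpow_nonneg hh.le (1 / 5 : ℝ)).trans hη
    gcongr

end Fc

end Vale.Agent.P214.BPT
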