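import Vale.Agent.P214.BTWO.At
import Vale.Agent.P214.BINST.Win

/-!
# P214, target B, block [B5-PT]: the reference of one window at the scales inside the window

`at_win` : `BTWO.At` for the reference of window `j` at the scales `r (j+1) < s ≤ r j (1 - 12 θ_j)`,
with the height `hN s` at the same scale and the exponent `3/4`.
-/

open Set Filter Topology MeasureTheory Metric
open scoped RealInnerProductSpace ContDiff

set_option linter.all false

namespace Vale.Agent.P214.BPT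

open WIN STR FM BINST
open WSEQ (th)
open BSEQ (Exps WSeq LocB)

variable {m n Q : ℕ} {E : Type*} [NormedAddCommGroup E] [InnerProductSpace ℝ E]
  [FiniteDimensional ℝ E] [MeasurableSpace E] [BorelSpace E]
variable {T : Submodule ℝ E} {F : Frame m n T} {ν : Measure E} {P : E → E →L[ℝ] E}
  {X : Exps} {C ε τ : ℝ}

/-- relation of the exponents -/
lemma exps_at (hX : X.OK m) :
    3 / 4 * (1 + X.c) + 2 * (m + 2 + sW m) * X.c₅ ≤ 1 - 2 * X.e' := by
  have h1 := hX.e'_eq
  have h2 := hX.e'_le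
  have h3 := hX.c_le
  have h4 := hX.e_pos
  have h5 := hX.c₅_pos
  have hm : (0:ℝ) ≤ m := Nat.cast_nonneg m
  have h6 : (sW m : ℝ) = 4 * m + 16 := by unfold sW; push_cast; ring
  rw [h6]
  nlinarith [mul_nonneg hm h5.le]

/-- change of the height in `At` -/
lemma at_mono {z : E} {ε s h b h' b' : ℝ} {u : Fin n → REF.E m → ℝ} (hn : 0 < n) (hs : 0 < s)
    (H : BTWO.At m n Q F ν z ε s h b u) (h1 : h ^ b ≤ h' ^ b')
    (h2 : h ^ (b / 2) ≤ h' ^ (b' / 2)) : BTWO.At m n Q F ν z ε s h' b' u := by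
  obtain ⟨u₀, hu₀, hm⟩ := H.mass
  refine ⟨H.smooth, H.val, H.small, H.exact, fun φ M hφ => (H.weak φ M hφ).trans ?_,
    H.l2.trans (by gcongr), H.slab, u₀, hu₀, fun ψ M h3 h4 h5 => (hm ψ M h3 h4 h5).trans ?_⟩
  · have hM : 0 ≤ M := by
      have h1 := hφ.bd ⟨0, hn⟩ 0 (Nat.zero_le _) 0
      rw [pow_zero, mul_one] at h1
      exact (norm_nonneg _).trans h1
    gcongr
  · have hM : 0 ≤ M := (abs_nonneg _).trans (h5 0)
    gcongr

/-- **the reference of a window at the scales inside the window** -/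
theorem at_win (S : WSeq m n Q T F ν X C ε) (hctx : Ctx P τ S) (hn : 0 < n) {j : ℕ}
    (W : NumW S j) {s ε₁ : ℝ} (hε₁ : ε ≤ ε₁) (hs1 : S.r (j + 1) < s)
    (hs2 : s ≤ S.r j * (1 - 12 * th (S.h j))) (val : ∀ a, |S.u (j + 1) a 0| ≤ ε₁ * s)
    (slab : ∀ᵐ y ∂ν, ‖T.starProjection y‖ < s → ‖KMS.rel T (wr S j) y‖ ≤ ε₁ * s) :
    BTWO.At m n Q F ν 0 ε₁ s (hN m T (wr S j) ν s) (3 / 4) (S.u (j + 1)) := by
  have hX := hctx.ok
  have hr := W.rpos
  have hr' := S.r_pos (j + 1)
  have hs : 0 < s := hr'.trans hs1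
  have hh := W.hpos
  have hh1 : S.h j ≤ 1 := W.h1.trans (by norm_num)
  have hθ := W.th_pos
  have hθ1 := W.th_le
  have he0 := hX.e_pos
  have hc₅ := hX.c₅_pos
  have hee : X.e ≤ X.e' := by
    rw [hX.e'_eq]
    have : 0 ≤ ((m:ℝ) + 3) * X.c₅ := by positivity
    linarith
  have hge := (S.nxt j).r_ge
  set ρ := S.r j * (1 - 12 * th (S.h j)) with hρ
  have hρ0 : 0 < ρ := hs.trans_le hs2
  have hρr : ρ ≤ S.r j := mul_le_of_le_one_right hr.le (by linarith)
  have hρ8 : ρ ≤ S.r j * (1 - 8 * th (S.h j)) := by rw [hρ]; gcongr; linarith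
  have hρ5 : ρ ≤ S.r j * (1 - 5 * th (S.h j)) := by rw [hρ]; gcongr; linarith
  have hlow : S.h j ^ (1 + X.c) < hN m T (wr S j) ν s := (S.nxt j).h_gt s hs1 hs2
  have hp : 0 < S.h j ^ (1 + X.c) := Real.rpow_pos_of_pos hh _
  have hI := (hctx.loc.int (3 / 8) (by norm_num) le_rfl).cyl
  have hcw : Continuous (wr S j) :=
    (COORD.contDiff_lift F (k := ∞) (S.nxt j).smooth).continuous
  have hset : {y : E | ‖F.xc (y - 0)‖ < ρ} = Skel.cylSet T 0 ρ := by
    ext y
    simp only [sub_zero, F.norm_xc, mem_setOf_eq, Skel.cylSet, mem_preimage, mem_ball_zero_iff]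
  have key : BTWO.At m n Q F ν 0 ε₁ s (S.h j) (3 / 4 * (1 + X.c)) (S.u (j + 1)) := by
    refine BTWO.at_resc (r := S.r j) (ρ := ρ) (b₀ := 1 - 2 * X.e') (c₅ := X.c₅) F hn hs hs2 hρr hh
      hh1 hc₅.le (hge.trans hs1.le) (exps_at hX) (hctx.ε_pos.le.trans hε₁) (S.nxt j).smooth val
      (fun a k hk1 hk x => ((S.nxt j).small a k hk1 hk x).trans (by gcongr))
      (fun a x hx => (S.nxt j).exact a x (hx.trans_le hρ5)) (fun φ M hφ => ?_) ?_ ?_ ?_
      (S.refe j).smooth (fun ψ M h3 h4 h5 => ?_)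
    · have hM : 0 ≤ M := by
        have h1 := hφ.bd ⟨0, hn⟩ 0 (Nat.zero_le _) 0
        rw [pow_zero, mul_one] at h1
        exact (norm_nonneg _).trans h1
      simp only [sub_zero]
      refine ((S.nxt j).weak φ M ⟨hφ.smooth, fun a x hx => hφ.supp a x (hρ5.trans hx),
        hφ.bd⟩).trans ?_
      have e1 : S.h j ^ (1 - X.e) ≤ S.h j ^ (1 - 2 * X.e') :=
        Real.rpow_le_rpow_of_exponent_ge hh hh1 (by linarith)
      gcongr
    · rw [hset]
      simp only [sub_zero]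
      exact S1.integrableOn_cont hI (((FV.co T).continuous.sub hcw).norm.pow 2)
        (closedBall_subset_ball (by have := W.rle; linarith))
    · rw [hset]
      simp only [sub_zero]
      have e1 := (S.nxt j).top ρ (hge.trans (hs1.le.trans hs2)) hρ8
      have e2 : S.h j ^ (1 - X.e') ≤ S.h j ^ (1 - 2 * X.e') :=
        Real.rpow_le_rpow_of_exponent_ge hh hh1 (by linarith)
      have e3 : hE T (wr S j) ν ρ = ρ ^ (m + 2) * hN m T (wr S j) ν ρ := by
        unfold hN; field_simp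
      have e4 : hE T (wr S j) ν ρ ≤ S.r j ^ (m + 2) * S.h j ^ (1 - 2 * X.e') := by
        rw [e3]
        have := Real.rpow_nonneg hh.le (1 - 2 * X.e')
        have h5 : hN m T (wr S j) ν ρ ≤ S.h j ^ (1 - 2 * X.e') := e1.trans e2
        have h6 : 0 ≤ hN m T (wr S j) ν ρ :=
          mul_nonneg (by positivity) (integral_nonneg fun _ => sq_nonneg _)
        gcongr
      exact e4
    · filter_upwards [slab] with y hy hys
      rw [sub_zero] at hys ⊢
      rw [F.norm_xc] at hys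
      exact hy hys
    · have hM : 0 ≤ M := (abs_nonneg _).trans (h5 0)
      simp only [sub_zero]
      refine ((S.nxt j).mass ψ M h3 (fun x hx => h4 x (hρ5.trans hx)) h5).trans ?_
      have e1 : S.h j ^ (1 / 2 - X.e) ≤ S.h j ^ ((1 - 2 * X.e') / 2) :=
        Real.rpow_le_rpow_of_exponent_ge hh hh1 (by linarith)
      gcongr
  refine at_mono hn hs key ?_ ?_
  · rw [mul_comm, Real.rpow_mul hh.le]
    exact Real.rpow_le_rpow hp.le hlow.le (by norm_num)
  · rw [show 3 / 4 * (1 + X.c) / 2 = (1 + X.c) * (3 / 4 / 2) by ring, Real.rpow_mul hh.le]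
    exact Real.rpow_le_rpow hp.le hlow.le (by norm_num)

end Vale.Agent.P214.BPT
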