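import Vale.Agent.P214.BPT.Long
import Vale.Agent.P214.BABS.Rdy

/-!
# P214, target B, block [B5-PT]: pinched active references at all small scales
-/

open Set Filter Topology MeasureTheory Metric
open scoped RealInnerProductSpace ENNReal ContDiff

set_option linter.all false

namespace Vale.Agent.P214.BPT

open WIN FM STR BINST
open INST (Ker)
open WSEQ (th)
open BSEQ (Exps WSeq LocB)

variable {m n Q : ℕ} {E : Type*} [NormedAddCommGroup E] [InnerProductSpace ℝ E]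
  [FiniteDimensional ℝ E] [MeasurableSpace E] [BorelSpace E]
variable {T : Submodule ℝ E} {F : Frame m n T} {ν : Measure E} {P : E → E →L[ℝ] E}
  {X : Exps} {C ε : ℝ}

lemma hN_nonneg (m : ℕ) (T : Submodule ℝ E) (w : E → E) (ν : Measure E) {s : ℝ} (hs : 0 < s) :
    0 ≤ hN m T w ν s := by
  unfold hN hE
  have : 0 ≤ ∫ y in Skel.cylSet T 0 s, ‖KMS.rel T w y‖ ^ 2 ∂ν :=
    integral_nonneg fun _ => sq_nonneg _
  positivity

/-- real arithmetic of the doubling of the height -/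
lemma dblN_arith {Ck G r Y Z N₂ Nr Nz p : ℝ} (hr : 0 < r) (hCk : 1 ≤ Ck) (hG : 0 ≤ G)
    (c1 : N₂ ≤ Ck * (1 / 2 : ℝ)⁻¹ ^ 3 * ((2 * r) ^ 2)⁻¹ * Y) (c2 : Z ≤ Ck * (r / 2) ^ 2 * Nz)
    (c3 : Y / (2 * r * (1 + 1 / 2)) ^ 2 ≤ G * (Z / (r / 2) ^ 2)) (c5 : Nz ≤ p * Nr) :
    N₂ ≤ 18 * Ck * G * (Ck * p) * Nr := by
  have hCk0 : 0 < Ck := by linarith
  have hr2 : 0 < r ^ 2 := by positivity
  have d0 : Y ≤ 36 * G * Z := by
    have e1 : (2 * r * (1 + 1 / 2)) ^ 2 = 9 * r ^ 2 := by ring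
    have e2 : (r / 2) ^ 2 = r ^ 2 / 4 := by ring
    rw [e1, e2, div_le_iff₀ (by positivity)] at c3
    refine c3.trans (le_of_eq ?_)
    field_simp
    ring
  have d1 : N₂ ≤ 2 * Ck * Y / r ^ 2 := by
    refine c1.trans (le_of_eq ?_)
    field_simp
  have d2 : Z ≤ Ck * (r ^ 2 / 4) * (p * Nr) := by
    refine c2.trans ?_
    have e2 : (r / 2) ^ 2 = r ^ 2 / 4 := by ring
    rw [e2]
    gcongr
  calc N₂ ≤ 2 * Ck * Y / r ^ 2 := d1
    _ ≤ 2 * Ck * (36 * G * (Ck * (r ^ 2 / 4) * (p * Nr))) / r ^ 2 := by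
        gcongr
        exact d0.trans (by gcongr)
    _ = _ := by
        field_simp
        ring

namespace Fc

variable {k k' K : ℝ → ℝ} {Ck η₀ b A τ B : ℝ} {S : WSeq m n Q T F ν X C ε}
variable {k₀ : ℕ} {e : ℕ → ℝ} {M₀ Λ : ℝ}

lemma Tr_antitone (H : Fc k Ck η₀ b A τ P S) : Antitone (Tr S) :=
  antitone_nat_of_succ_le fun j => Tr_anti_le H j

/-- monotonicity of the unnormalised height -/
lemma hN_mono (H : Fc k Ck η₀ b A τ P S) (j : ℕ) {x y : ℝ} (hx : 0 < x) (hxy : x ≤ y)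
    (hy : y < 3 / 8) : x ^ (m + 2) * hN m T (wr S j) ν x ≤ y ^ (m + 2) * hN m T (wr S j) ν y := by
  have hy0 : 0 < y := hx.trans_le hxy
  have hI := H.ctx.loc.int (3 / 8) (by norm_num) le_rfl
  have hint := HSW.integrableOn_rel_sq hI.cyl (COORD.kms_ref_lift F (S.nxt j).smooth) 0 (s := y) (by
      rw [sub_zero, norm_zero, zero_add]; exact hy)
  have e : ∀ s : ℝ, 0 < s → s ^ (m + 2) * hN m T (wr S j) ν s =
      ∫ y in Skel.cylSet T 0 s, ‖KMS.rel T (wr S j) y‖ ^ 2 ∂ν := by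
    intro s hs
    unfold hN hE
    field_simp
  rw [e x hx, e y hy0]
  refine setIntegral_mono_set hint (Eventually.of_forall fun _ => sq_nonneg _) ?_
  refine Eventually.of_forall fun z hz => ?_
  exact ball_subset_ball hxy hz

/-- doubling of the height inside the window -/
lemma dblN (H : Fc k Ck η₀ b A τ P S) {j : ℕ} {r D : ℝ} (h1 : 2 * S.r (j + 1) ≤ r)
    (h2 : 8 * r ≤ S.r j) (hD : 1 ≤ D)
    (c3 : INST.Hw m T ν k (tube S j) (wr S j) (2 * r * (1 + 1 / 2)) /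
      (2 * r * (1 + 1 / 2)) ^ 2 ≤
        D * 6 ^ D * (INST.Hw m T ν k (tube S j) (wr S j) (r / 2) / (r / 2) ^ 2)) :
    hN m T (wr S j) ν (2 * r) ≤
      18 * Ck * (D * 6 ^ D) * (Ck * 2 ^ (m + 2)) * hN m T (wr S j) ν r := by
  have hr := H.rpos j
  have hr1 := S.r_pos (j + 1)
  have hr0 : 0 < r := by linarith
  have hh := H.hpos j
  have hθ := (H.num j).th_le
  have hθ0 := (H.num j).th_pos
  have hten := (H.num j).ten
  have hq : S.h j ^ (1 / 4 : ℝ) ≤ S.h j ^ (1 / 10 : ℝ) := H.pw j (by norm_num)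
  have hq0 := Real.rpow_nonneg hh.le (1 / 4 : ℝ)
  have hrle := (H.num j).rle
  have hge := (S.nxt j).r_ge
  have hrθ : S.r j * th (S.h j) ≤ S.r j * (1 / 120) := by gcongr
  have c1 := (H.ker j (2 * r) (H.low_ker j (by linarith))).2 (1 / 2) (by linarith)
    le_rfl (by linarith)
  have c2 := (H.ker j (r / 2) (H.low_ker j (by linarith))).1 (by linarith)
  have c4 := H.hN_mono j (x := r / 2 * (1 + S.h j ^ (1 / 4 : ℝ))) (y := r) (by positivity)
    (by
      have : S.h j ^ (1 / 4 : ℝ) ≤ 1 := by linarith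
      calc r / 2 * (1 + S.h j ^ (1 / 4 : ℝ)) ≤ r / 2 * (1 + 1) := by gcongr
        _ = r := by ring) (by linarith)
  have hN0 := hN_nonneg m T (wr S j) ν (s := r / 2 * (1 + S.h j ^ (1 / 4 : ℝ))) (by positivity)
  have c5 : hN m T (wr S j) ν (r / 2 * (1 + S.h j ^ (1 / 4 : ℝ))) ≤
      2 ^ (m + 2) * hN m T (wr S j) ν r := by
    have h3 : (r / 2) ^ (m + 2) * hN m T (wr S j) ν (r / 2 * (1 + S.h j ^ (1 / 4 : ℝ))) ≤
        r ^ (m + 2) * hN m T (wr S j) ν r := by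
      refine le_trans ?_ c4
      have h5 : r / 2 ≤ r / 2 * (1 + S.h j ^ (1 / 4 : ℝ)) := by
        have : 0 < r / 2 := by positivity
        nlinarith
      have h6 : (r / 2) ^ (m + 2) ≤ (r / 2 * (1 + S.h j ^ (1 / 4 : ℝ))) ^ (m + 2) :=
        pow_le_pow_left₀ (by positivity) h5 _
      exact mul_le_mul_of_nonneg_right h6 hN0
    rw [div_pow, div_mul_eq_mul_div, div_le_iff₀ (by positivity)] at h3
    have h4 : 0 < r ^ (m + 2) := by positivity
    refine le_of_mul_le_mul_left ?_ h4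
    calc _ ≤ _ := h3
      _ = _ := by ring
  exact dblN_arith hr0 H.Ck_one (by positivity) c1 c2 c3 c5

/-- **pinched active reference** on scales well inside window `k₀ + i'` -/
theorem rdyAt (hk : Ker k k' K B) (H : Fc k Ck η₀ b A τ P S) (hn : 0 < n)
    (hG : BABS.Good (BINST.chain k K b A e P S k₀) b A) {i' : ℕ} {η ta tb D Λ₁ : ℝ}
    (hta : 0 < ta) (hab : ta ≤ tb)
    (hR : BABS.RdyR (BINST.chain k K b A e P S k₀) M₀ D η i' ta tb)
    (hη : S.h (k₀ + i') ^ (1 / 5 : ℝ) ≤ η) (hη0 : S.h (k₀ + i') ^ (1 / 5 : ℝ) ≤ η₀)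
    (hκ : A * ta ^ (b - 1) * tb ≤ η) (hD : 1 ≤ D)
    (hΛ₁ : D ≤ Λ₁) (hΛ₁' : 18 * Ck * (D * 6 ^ D) * (Ck * 2 ^ (m + 2)) ≤ Λ₁) :
    BDIM.RdyAt k K m n Q F ν P (3 / 4) η₀ η M₀ Λ₁ (S.u (k₀ + i' + 1)) (tube S (k₀ + i'))
      (A * ta ^ (b - 1)) ta tb := by
  set j := k₀ + i' with hj
  have hr := H.rpos j
  have hr1 := S.r_pos (j + 1)
  have hh := H.hpos j
  have hh1 := H.hle j
  have hθ := (H.num j).th_le
  have hθ0 := (H.num j).th_pos
  have htb0 : 0 < tb := by linarith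
  have hTr := (H.num j).Tr_le
  have hCk := H.Ck_one
  -- the window
  have hw1 : Tr S (j + 1) ≤ ta / 8 := (hR.win (ta / 8) le_rfl (by linarith)).1
  have hw2 : 8 * tb ≤ Tr S j := (hR.win (8 * tb) (by linarith) le_rfl).2
  have hTj : Tr S j ≤ S.r j := by
    unfold Tr
    nlinarith [mul_pos hr hθ0]
  have hTr11 : 11 / 12 * S.r (j + 1) ≤ Tr S (j + 1) := Tr_ge S (j + 1)
  have h1 : 4 * S.r (j + 1) ≤ ta := by linarith
  have h2 : 8 * tb ≤ S.r j := hw2.trans hTj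
  have hpos : ∀ s, ta / 8 ≤ s → s ≤ 8 * tb →
      0 < INST.Hw m T ν k (tube S j) (wr S j) s := fun s hs hs' => hG.H_pos i' s (hR.win s hs hs')
  have hgr : ∀ x t, ta / 8 ≤ x → x ≤ t → t ≤ 8 * tb →
      INST.Hw m T ν k (tube S j) (wr S j) t / t ^ 2 ≤
        D * (t / x) ^ D * (INST.Hw m T ν k (tube S j) (wr S j) x / x ^ 2) :=
    fun x t hx hxt ht => hR.grow x t hx hxt ht
  refine ⟨H.act hn h1 hab h2 hη hη0 hκ, fun r hr1' hr2' => hpos r (by linarith) (by linarith),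
    ?_, ?_, ?_⟩
  · -- doubling of the kernel height
    intro r hra hrb
    refine (hR.dbl r hra hrb).trans ?_
    have := (hpos r (by linarith) (by linarith)).le
    exact mul_le_mul_of_nonneg_right hΛ₁ this
  · -- doubling of the height
    intro r hra hrb
    have hr0 : 0 < r := by linarith
    have c3 := hgr (r / 2) (2 * r * (1 + 1 / 2)) (by linarith) (by linarith) (by linarith)
    have e1 : 2 * r * (1 + 1 / 2) / (r / 2) = 6 := by field_simp; norm_num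
    rw [e1] at c3
    have hNr := hN_nonneg m T (wr S j) ν hr0
    exact (H.dblN (by linarith) (by linarith) hD c3).trans
      (mul_le_mul_of_nonneg_right hΛ₁' hNr)
  · -- pinched scales
    intro r hra hrb
    obtain ⟨s, N, h3, h4, h5, h6, h7⟩ := hR.pinch r hra hrb
    refine ⟨s, N, h3, h4, h5, h6, ?_⟩
    exact h7

/-- **pinched active references at all small scales** -/
theorem rdy (hk : Ker k k' K B) (H : Fc k Ck η₀ b A τ P S) (hn : 0 < n)
    (hG : BABS.Good (BINST.chain k K b A e P S k₀) b A)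
    (hL : BABS.Limit (BINST.chain k K b A e P S k₀) M₀ Λ) {Λ₁ : ℝ}
    (hΛ₁ : BABS.dR Λ ≤ Λ₁)
    (hΛ₁' : 18 * Ck * (BABS.dR Λ * 6 ^ BABS.dR Λ) * (Ck * 2 ^ (m + 2)) ≤ Λ₁)
    {η : ℝ} (hη : 0 < η) :
    ∃ t₁, 0 < t₁ ∧ BDIM.Rdy k K m n Q F ν P (3 / 4) η₀ η M₀ Λ₁ t₁ := by
  have hΛ : 1 ≤ Λ := hL.one_lt.le.trans hL.le
  have hD : 1 ≤ BABS.dR Λ := hΛ.trans (BABS.le_dR hΛ)
  have hb := H.b_pos
  have hA0 : 0 < A := by linarith [H.A_one]
  have hη0 := H.η₀_pos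
  obtain ⟨N, hN⟩ := eventually_atTop.1
    (ev_h_pow S H.ctx.ok.β_pos (a := 1 / 5) (by norm_num) (lt_min hη hη0))
  obtain ⟨t₁, ht₁, hrdy⟩ := BABS.Good.rdy hG hL (H.chain_long hk hL) hη N
  set q : ℝ := η / (A * 2 ^ 60) with hq
  have hq0 : 0 < q := by positivity
  refine ⟨min t₁ (q ^ (1 / b) / 2 ^ 66), by positivity, ?_⟩
  intro β t hβ hβ2 ht htt
  obtain ⟨s, hs, i', hNi, hR⟩ := hrdy β t hβ hβ2 ht (htt.trans (min_le_left _ _))
  have hβ0 : 0 < β := by linarith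
  have hs0 : 0 < s := by
    rcases hs with rfl | rfl
    · exact ht
    · positivity
  have hst : s ≤ 2 ^ 66 * t := by
    rcases hs with rfl | rfl
    · nlinarith
    · calc 64 * β * t ≤ 64 * 2 ^ 60 * t := by gcongr
        _ = _ := by ring
  have hsq : s ^ b ≤ q := by
    have h1 : s ≤ q ^ (1 / b) := by
      have h2 := htt.trans (min_le_right _ _)
      rw [le_div_iff₀ (by positivity)] at h2
      linarith
    calc s ^ b ≤ (q ^ (1 / b)) ^ b := Real.rpow_le_rpow hs0.le h1 hb.le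
      _ = q := by rw [← Real.rpow_mul hq0.le, one_div, inv_mul_cancel₀ hb.ne', Real.rpow_one]
  have hh := hN (k₀ + i') (by omega)
  refine ⟨s, hs, S.u (k₀ + i' + 1), tube S (k₀ + i'), A * s ^ (b - 1), ?_⟩
  refine H.rdyAt hk hn hG hs0 (by nlinarith) hR (hh.trans (min_le_left _ _))
    (hh.trans (min_le_right _ _)) ?_ hD hΛ₁ hΛ₁'
  have e1 : s ^ (b - 1) * s = s ^ b := by
    nth_rewrite 2 [← Real.rpow_one s]
    rw [← Real.rpow_add hs0]
    congr 1; ring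
  calc A * s ^ (b - 1) * (β * s) = A * β * (s ^ (b - 1) * s) := by ring
    _ = A * β * s ^ b := by rw [e1]
    _ ≤ A * 2 ^ 60 * q := by gcongr
    _ = η := by rw [hq]; field_simp

end Fc

end Vale.Agent.P214.BPT
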