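import Vale.Agent.P214.BPT.Start
import Vale.Agent.P214.BPT.Rdy
import Vale.Agent.P214.BABS.Main
import Vale.Agent.P214.BINST.GoodFin
import Vale.Agent.P214.BDIM.FlatFin

/-!
# P214, target B: the dimension of the singular set of a stationary integral varifold

`ptStmt_of` : [B5-PT] from the statements of the blocks BINST; `ptStmt_all` : unconditional;
`dimH_sing_le` : the singular set of a stationary integral `m`-varifold has Hausdorff dimension at
most `m - 1`.
-/

open Set Filter Topology MeasureTheory Metric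
open scoped RealInnerProductSpace ENNReal ContDiff

set_option linter.all false

namespace Vale.Agent.P214.BPT

open WIN FM STR BINST
open BSEQ (Exps WSeq LocB)

variable {m n Q : ℕ} {E : Type*} [NormedAddCommGroup E] [InnerProductSpace ℝ E]
  [FiniteDimensional ℝ E] [MeasurableSpace E] [BorelSpace E]
variable {T : Submodule ℝ E} {F : Frame m n T} {ν : Measure E} {P : E → E →L[ℝ] E}
  {X : Exps} {C ε : ℝ}

/-- the codimension is positive: otherwise all heights are zero -/
lemma wseq_n_pos (S : WSeq m n Q T F ν X C ε) : 0 < n := by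
  by_contra hc
  obtain rfl : n = 0 := by omega
  have h1 : ∀ y : E, FV.co T y = 0 := by
    intro y
    have hbot : Module.finrank ℝ Tᗮ = 0 := by
      have := Module.finrank_eq_card_basis F.bN.toBasis
      simpa using this
    have h2 : Tᗮ = ⊥ := Submodule.finrank_eq_zero.1 hbot
    have h3 : FV.co T y ∈ Tᗮ := by
      rw [FV.co_eq]; exact Submodule.starProjection_apply_mem _ _
    rw [h2] at h3
    simpa using h3
  have h2 : ∀ y : E, F.lift (S.u 0) y = 0 := fun y => by
    unfold Frame.lift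
    simp
  have h3 := S.h_pos 0
  rw [S.h_eq 0] at h3
  unfold hN hE at h3
  simp [KMS.rel, h1, h2] at h3

/-- **[B5-PT]**, from the statements of the blocks BINST -/
theorem ptStmt_of {k k' K : ℝ → ℝ} {B : ℝ} (hk : INST.Ker k k' K B) (hm : 1 ≤ m)
    (hE : Module.finrank ℝ E = m + n) (hR : ∀ Q, 1 ≤ Q → BINST.RefsStmt E m n Q)
    (hC : ∀ Q, 1 ≤ Q → BINST.CylStmt E m n Q) (hG : ∀ Q, 1 ≤ Q → BINST.GoodStmt E m n Q k K) :
    BDIM.PtStmt E m n k K (3 / 4) := by
  intro U V hU hV x hx hpf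
  obtain ⟨Q, hQ, H⟩ := exists_start hk hm hE hR hC hG hU V hV hx hpf
  refine ⟨Q, hQ, fun ε hε hε0 => ?_⟩
  obtain ⟨i, j, T, F, Ck, b, A, τ, C, ε', X, S, k₀, e, hPF, hjU, hloc, hFc, hgood⟩ := H ε hε hε0
  obtain ⟨M₀, Λ, hL⟩ := BABS.b2 _ _ _ hgood
  obtain ⟨l, hl⟩ := exists_nat_ge (max (max Λ (BABS.dR Λ))
    (18 * Ck * (BABS.dR Λ * 6 ^ BABS.dR Λ) * (Ck * 2 ^ (m + 2))))
  have hl1 : Λ ≤ l := (le_max_left _ _).trans ((le_max_left _ _).trans hl)
  have hl2 : BABS.dR Λ ≤ l := (le_max_right _ _).trans ((le_max_left _ _).trans hl)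
  have hl3 := (le_max_right _ _).trans hl
  exact ⟨i, j, l, ⟨{
    T := T
    F := F
    pf := hPF
    ball := hjU
    loc := hloc
    M := M₀
    one_le := hL.one_lt.le
    le := hL.le.trans hl1
    rdy := fun η hη => hFc.rdy hk (wseq_n_pos S) hgood hL hl2 hl3 hη }⟩⟩

/-- **[B5-PT]**, unconditional -/
theorem ptStmt_all (E : Type*) [NormedAddCommGroup E] [InnerProductSpace ℝ E]
    [FiniteDimensional ℝ E] [MeasurableSpace E] [BorelSpace E] {m : ℕ} (hm : 1 ≤ m) :
    BDIM.PtStmt E m (Module.finrank ℝ E - m) ODEW.k3 ODEW.K3 (3 / 4) := by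
  intro U V hU hV x hx hpf
  have hpf' := hpf
  obtain ⟨T, Q, β, C₀, r₀, hPF⟩ := BLOC.powerFlat_iff.1 hpf'
  have h1 : m ≤ Module.finrank ℝ E := hPF.1 ▸ Submodule.finrank_le T
  exact ptStmt_of INST.ker3 hm (by omega) (fun Q _ => BINST.refsStmt E m _ Q)
    (fun Q _ => BINST.cylStmt (BINST.refsStmt E m _ Q))
    (fun Q _ => BINST.goodStmt E _ Q hm INST.ker3)
    U V hU hV x hx hpf

/-- **The singular set of a stationary integral `m`-varifold has dimension at most `m - 1`.** -/
theorem dimH_sing_le {m : ℕ} (hm : 1 ≤ m) {U : Set E} (hU : IsOpen U)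
    (V : IntegralVarifold m U) (hV : V.IsStationary) :
    dimH V.sing ≤ ((m - 1 : ℕ) : ℝ≥0∞) :=
  BDIM.dimH_sing_le_of_pt hm (ptStmt_all E hm) hU V hV

end Vale.Agent.P214.BPT
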