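import Vale.Agent.P214.BPT.Act
import Vale.Agent.P214.BABS.Long

/-!
# P214, target B, block [B5-PT]: the windows are longer than any factor
-/

open Set Filter Topology MeasureTheory Metric
open scoped RealInnerProductSpace ENNReal ContDiff

set_option linter.all false

namespace Vale.Agent.P214.BPT

open WIN FM STR BINST
open INST (Ker)
open WSEQ (th)
open BSEQ (Exps WSeq LocB)

variable {m n Q : ℕ} {E : Type*} [NormedAddCommGroup E] [InnerProductSpace ℝ E]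
  [FiniteDimensional ℝ E] [MeasurableSpace E] [BorelSpace E]
variable {T : Submodule ℝ E} {F : Frame m n T} {ν : Measure E} {P : E → E →L[ℝ] E}
  {X : Exps} {C ε : ℝ}

/-- real arithmetic of the drop -/
lemma drop_arith {Λ Ck A' c e' h g θ y x a₀ a₂ : ℝ} (hΛ : 1 ≤ Λ) (hCk : 1 ≤ Ck) (hA' : 1 ≤ A')
    (hc : 0 < c) (hc1 : c ≤ 1 / 100) (he' : 0 ≤ e') (he'c : e' ≤ c / 8) (hh : 0 < h) (hh1 : h ≤ 1)
    (hg : 0 < g) (hgh : h ≤ g ^ (1 - e')) (hg1 : g ≤ 1) (hθ : g ^ (c / 16) ≤ θ) (hθ1 : θ ≤ 1)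
    (hx : 0 < x) (hxy : x ≤ y) (hyx : y ≤ 3 * A' * x)
    (hlow : h ≤ Ck * (θ⁻¹ ^ 3 * (4 * a₀)))
    (hgrow : a₀ ≤ Λ * (y / x) ^ Λ * a₂) (hup : a₂ ≤ Ck * h ^ (1 + c / 2)) :
    h ^ (-(c / 8)) ≤ 4 * Ck ^ 2 * Λ * (3 * A') ^ Λ := by
  have hθ0 : 0 < θ := (Real.rpow_pos_of_pos hg _).trans_le hθ
  have hy : 0 < y := hx.trans_le hxy
  have hCk0 : 0 < Ck := by linarith
  have hΛ0 : 0 < Λ := by linarith
  -- `θ⁻³ ≤ h^{-3c/8}`
  have h1 : h ^ (3 * c / 8) ≤ θ ^ 3 := by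
    have h2 : (g ^ (c / 16)) ^ 3 = g ^ (3 * c / 16) := by
      rw [← Real.rpow_natCast, ← Real.rpow_mul hg.le]; congr 1; push_cast; ring
    calc h ^ (3 * c / 8) ≤ (g ^ (1 - e')) ^ (3 * c / 8) :=
          Real.rpow_le_rpow hh.le hgh (by positivity)
      _ = g ^ ((1 - e') * (3 * c / 8)) := by rw [← Real.rpow_mul hg.le]
      _ ≤ g ^ (3 * c / 16) := Real.rpow_le_rpow_of_exponent_ge hg hg1 (by nlinarith)
      _ = (g ^ (c / 16)) ^ 3 := h2.symm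
      _ ≤ θ ^ 3 := by
          have := Real.rpow_nonneg hg.le (c / 16)
          gcongr
  have h2 : θ⁻¹ ^ 3 ≤ h ^ (-(3 * c / 8)) := by
    rw [Real.rpow_neg hh.le, inv_pow]
    have := Real.rpow_pos_of_pos hh (3 * c / 8)
    gcongr
  have h3 : (y / x) ^ Λ ≤ (3 * A') ^ Λ := by
    have : y / x ≤ 3 * A' := by rw [div_le_iff₀ hx]; exact hyx
    exact Real.rpow_le_rpow (by positivity) this hΛ0.le
  have hp := Real.rpow_pos_of_pos hh (1 + c / 2)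
  have h4 : a₀ ≤ Λ * (3 * A') ^ Λ * (Ck * h ^ (1 + c / 2)) := by
    calc a₀ ≤ Λ * (y / x) ^ Λ * a₂ := hgrow
      _ ≤ Λ * (y / x) ^ Λ * (Ck * h ^ (1 + c / 2)) := by
          have : 0 ≤ (y / x) ^ Λ := by positivity
          gcongr
      _ ≤ _ := by gcongr
  have h5 : h ≤ Ck * (h ^ (-(3 * c / 8)) * (4 * (Λ * (3 * A') ^ Λ * (Ck * h ^ (1 + c / 2))))) := by
    refine hlow.trans ?_
    have h6 : 0 ≤ θ⁻¹ ^ 3 := by positivity
    calc Ck * (θ⁻¹ ^ 3 * (4 * a₀)) ≤ Ck * (θ⁻¹ ^ 3 *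
          (4 * (Λ * (3 * A') ^ Λ * (Ck * h ^ (1 + c / 2))))) := by gcongr
      _ ≤ _ := by
          have : 0 ≤ 4 * (Λ * (3 * A') ^ Λ * (Ck * h ^ (1 + c / 2))) := by positivity
          gcongr
  have e1 : Ck * (h ^ (-(3 * c / 8)) * (4 * (Λ * (3 * A') ^ Λ * (Ck * h ^ (1 + c / 2))))) =
      (4 * Ck ^ 2 * Λ * (3 * A') ^ Λ) * (h * h ^ (c / 8)) := by
    have h7 : h ^ (-(3 * c / 8)) * h ^ (1 + c / 2) = h * h ^ (c / 8) := by
      rw [← Real.rpow_add hh]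
      nth_rewrite 2 [← Real.rpow_one h]
      rw [← Real.rpow_add hh]
      congr 1; ring
    rw [← h7]; ring
  rw [e1] at h5
  have h8 : 1 ≤ (4 * Ck ^ 2 * Λ * (3 * A') ^ Λ) * h ^ (c / 8) := by
    have h9 : h * 1 ≤ h * ((4 * Ck ^ 2 * Λ * (3 * A') ^ Λ) * h ^ (c / 8)) := by
      calc h * 1 = h := mul_one _
        _ ≤ _ := h5
        _ = _ := by ring
    exact le_of_mul_le_mul_left h9 hh
  rw [Real.rpow_neg hh.le]
  have := Real.rpow_pos_of_pos hh (c / 8)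
  rw [inv_le_iff_one_le_mul₀ this]
  linarith

lemma h_lim (S : WSeq m n Q T F ν X C ε) (hβ : 0 < X.β) : Tendsto S.h atTop (𝓝 0) := by
  have h1 : Tendsto (fun j => S.r j ^ X.β) atTop (𝓝 0) := by
    have h2 := (Real.continuousAt_rpow_const 0 X.β (Or.inr hβ.le)).tendsto.comp S.r_lim
    rw [Real.zero_rpow hβ.ne'] at h2
    exact h2
  exact squeeze_zero (fun j => (S.h_pos j).le) S.h_pow h1

/-- eventually small powers of the heights -/
lemma ev_h_pow (S : WSeq m n Q T F ν X C ε) (hβ : 0 < X.β) {a η : ℝ} (ha : 0 < a) (hη : 0 < η) :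
    ∀ᶠ j in atTop, S.h j ^ a ≤ η := by
  have h2 := (Real.continuousAt_rpow_const 0 a (Or.inr ha.le)).tendsto.comp (h_lim S hβ)
  rw [Real.zero_rpow ha.ne'] at h2
  exact (h2.eventually (gt_mem_nhds hη)).mono fun j hj => hj.le

namespace Fc

variable {k K : ℝ → ℝ} {Ck η₀ b A τ : ℝ} {S : WSeq m n Q T F ν X C ε}
variable {k₀ : ℕ} {e : ℕ → ℝ} {M₀ Λ : ℝ}

lemma chain_h (i : ℕ) (t : ℝ) : (BINST.chain k K b A e P S k₀).h i t =
    INST.Hw m T ν k (tube S (k₀ + i)) (wr S (k₀ + i)) t / t ^ 2 := rfl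

lemma Tr_anti_le (H : Fc k Ck η₀ b A τ P S) (j : ℕ) : Tr S (j + 1) ≤ Tr S j := by
  have h1 := (H.num j).Tr_le
  have h2 : S.r (j + 1) ≤ S.r j * (1 - 12 * th (S.h j)) := (S.nxt j).r_le
  have h3 := (H.num j).th_pos
  have h4 := H.rpos j
  unfold Tr at *
  nlinarith [mul_pos h4 h3]

/-- the kernel height at the top of a window -/
lemma up_top (H : Fc k Ck η₀ b A τ P S) (j : ℕ) (c3 : S.h j ^ X.c₅ ≤ 11 / 12)
    (hx0 : 0 < Tr S j) :
    INST.Hw m T ν k (tube S j) (wr S j) (Tr S j) / Tr S j ^ 2 ≤ Ck * S.h j ^ (1 - X.e') := by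
  have hr := H.rpos j
  have hh := H.hpos j
  have hθ := (H.num j).th_pos
  have hθ1 := (H.num j).th_le
  have hten := (H.num j).ten
  have hc5 := H.c₅_pos
  have hq : S.h j ^ (1 / 4 : ℝ) ≤ S.h j ^ (1 / 10 : ℝ) := H.pw j (by norm_num)
  have hq0 := Real.rpow_nonneg hh.le (1 / 4 : ℝ)
  have hx11 : 11 / 12 * S.r j ≤ Tr S j := Tr_ge S j
  have hup := (H.ker j (Tr S j) (by
    refine le_trans ?_ hx11
    have h6 : S.h j ^ (2 * X.c₅) ≤ 11 / 12 := (H.pw j (by linarith)).trans c3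
    calc S.r j * S.h j ^ (2 * X.c₅) ≤ S.r j * (11 / 12) := by gcongr
      _ = _ := by ring)).1 (by
    unfold Tr
    nlinarith [mul_pos hr hθ])
  have hup2 : hN m T (wr S j) ν (Tr S j * (1 + S.h j ^ (1 / 4 : ℝ))) ≤ S.h j ^ (1 - X.e') := by
    refine (S.nxt j).top _ ?_ ?_
    · calc S.r j * S.h j ^ X.c₅ ≤ S.r j * (11 / 12) := by gcongr
        _ ≤ Tr S j := by linarith
        _ = Tr S j * 1 := (mul_one _).symm
        _ ≤ _ := by gcongr; linarith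
    · unfold Tr
      calc S.r j * (1 - 10 * th (S.h j)) * (1 + S.h j ^ (1 / 4 : ℝ)) ≤
          S.r j * (1 - 10 * th (S.h j)) * (1 + 1 / 8 * th (S.h j)) := by
            have : 0 ≤ S.r j * (1 - 10 * th (S.h j)) :=
              mul_nonneg hr.le (by linarith)
            gcongr
            linarith
        _ ≤ _ := by
            nlinarith [mul_pos hr hθ, mul_pos (mul_pos hr hθ) hθ]
  rw [div_le_iff₀ (by positivity)]
  have hCk := H.Ck_one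
  calc _ ≤ Ck * Tr S j ^ 2 * hN m T (wr S j) ν (Tr S j * (1 + S.h j ^ (1 / 4 : ℝ))) := hup
    _ ≤ Ck * Tr S j ^ 2 * S.h j ^ (1 - X.e') := by gcongr
    _ = _ := by ring

/-- visibility of the next height at the bottom of a window -/
lemma low_bot {k' : ℝ → ℝ} {B : ℝ} (hk : Ker k k' K B) (H : Fc k Ck η₀ b A τ P S) (i : ℕ) :
    0 < S.r (i + 1) * (1 + th (S.h i)) ∧
    Tr S (i + 1) ≤ S.r (i + 1) * (1 + th (S.h i)) ∧
    S.r (i + 1) * (1 + th (S.h i)) ≤ Tr S i ∧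
    S.h (i + 1) ≤ S.h i ^ (1 - X.e') ∧
    S.h (i + 1) ≤ Ck * ((th (S.h i))⁻¹ ^ 3 * (4 * (INST.Hw m T ν k (tube S i) (wr S i)
      (S.r (i + 1) * (1 + th (S.h i))) / (S.r (i + 1) * (1 + th (S.h i))) ^ 2))) := by
  have hr1 := H.rpos (i + 1)
  have hr0 := H.rpos i
  have hh0 := H.hpos i
  have hθi := (H.num i).th_pos
  have hrl : S.r (i + 1) ≤ S.r i * (1 - 12 * th (S.h i)) := (S.nxt i).r_le
  have hθ1 := (H.num i).th_le
  have hten := (H.num i).ten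
  have hq : S.h i ^ (1 / 4 : ℝ) ≤ S.h i ^ (1 / 10 : ℝ) := H.pw i (by norm_num)
  set θ := th (S.h i) with hθ
  set y := S.r (i + 1) * (1 + θ) with hy
  have hy0 : 0 < y := by positivity
  have hyr : y ≤ S.r i * (1 - 11 * θ) := by
    calc y ≤ S.r i * (1 - 12 * θ) * (1 + θ) := by rw [hy]; gcongr
      _ ≤ S.r i * (1 - 11 * θ) := by nlinarith [mul_pos hr0 hθi, mul_pos (mul_pos hr0 hθi) hθi]
  have hlow := (H.ker i (S.r (i + 1)) (H.low_ker i (S.nxt i).r_ge)).2 θ (by linarith)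
    (by linarith) (by
      refine hyr.trans ?_
      nlinarith [mul_pos hr0 hθi])
  have hy2 : y ≤ Tr S i := by
    refine hyr.trans ?_
    unfold Tr
    nlinarith [mul_pos hr0 hθi]
  have hTr1 := (H.num i).Tr_le
  have hy1 : Tr S (i + 1) ≤ y := by
    refine hTr1.trans ?_
    rw [hy]; nlinarith [mul_pos hr1 hθi]
  refine ⟨hy0, hy1, hy2, ?_, ?_⟩
  · rw [S.h_eq (i + 1)]
    refine (S.nxt i).top (S.r (i + 1)) (S.nxt i).r_ge (hrl.trans ?_)
    nlinarith [mul_pos hr0 hθi]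
  · rw [S.h_eq (i + 1)]
    refine hlow.trans ?_
    have hH : 0 ≤ INST.Hw m T ν k (tube S i) (wr S i) y :=
      (H.cyl i).HF_nonneg (H.win i (Tr S (i + 1)) le_rfl (by
        have := (H.num i).Tr_le
        nlinarith [mul_pos hr0 hθi])).1 hk.kb.kern hy0
    have h6 : (S.r (i + 1) ^ 2)⁻¹ ≤ 4 * (y ^ 2)⁻¹ := by
      rw [← div_eq_mul_inv, inv_eq_one_div, div_le_div_iff₀ (by positivity) (by positivity)]
      rw [hy]
      have : (1 + θ) ^ 2 ≤ 4 := by nlinarith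
      nlinarith [mul_pos hr1 hr1]
    have hCk := H.Ck_one
    calc Ck * θ⁻¹ ^ 3 * (S.r (i + 1) ^ 2)⁻¹ * INST.Hw m T ν k (tube S i) (wr S i) y ≤
        Ck * θ⁻¹ ^ 3 * (4 * (y ^ 2)⁻¹) * INST.Hw m T ν k (tube S i) (wr S i) y := by
          gcongr
      _ = _ := by ring

/-- one step: if window `i + 1` is short, its height is bounded below -/
lemma long_step {k' : ℝ → ℝ} {B : ℝ} (hk : Ker k k' K B) (H : Fc k Ck η₀ b A τ P S)
    {i' : ℕ} {A' t₀ : ℝ} (hA' : 1 ≤ A') (hΛ : 1 ≤ Λ)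
    (hgrow : ∀ l t l' x, (BINST.chain k K b A e P S k₀).Win l t → t ≤ t₀ →
      (BINST.chain k K b A e P S k₀).Win l' x → x ≤ t →
      (BINST.chain k K b A e P S k₀).h l t ≤
        Λ * (t / x) ^ Λ * (BINST.chain k K b A e P S k₀).h l' x)
    (hth : S.h (k₀ + i') ^ (X.c / 16) ≤ th (S.h (k₀ + i')))
    (c3 : S.h (k₀ + i' + 2) ^ X.c₅ ≤ 11 / 12) (c5 : S.r (k₀ + i' + 1) ≤ t₀ / 2)
    (hdrop : S.h (k₀ + i' + 2) ≤ S.h (k₀ + i' + 1) ^ (1 + X.c))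
    (hcon' : S.r (k₀ + i' + 1) < A' * S.r (k₀ + i' + 2)) :
    S.h (k₀ + i' + 1) ^ (-(X.c / 8)) ≤ 4 * Ck ^ 2 * Λ * (3 * A') ^ Λ := by
  have hok := H.ctx.ok
  have hc := hok.c_pos
  have hc1 := hok.c_le
  have hc5 := H.c₅_pos
  have he' : 0 ≤ X.e' := by
    rw [hok.e'_eq]
    have := hok.e_pos
    positivity
  have he'c := hok.e'_le
  set i := k₀ + i' with hi
  obtain ⟨hy0, hy1, hy2, htop, hlow⟩ := H.low_bot hk i
  have hr1 := H.rpos (i + 1)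
  have hr2 := H.rpos (i + 2)
  have hh0 := H.hpos i
  have hh1 := H.hpos (i + 1)
  have hh2 := H.hpos (i + 2)
  have hθi := (H.num i).th_pos
  have hθ1 := (H.num i).th_le
  have hx0 : 0 < Tr S (i + 2) := (H.num (i + 1)).Tr_pos
  have hx11 : 11 / 12 * S.r (i + 2) ≤ Tr S (i + 2) := Tr_ge S (i + 2)
  have hxr : Tr S (i + 2) ≤ S.r (i + 2) := (H.num (i + 1)).Tr_le
  have hup := H.up_top (i + 2) c3 hx0
  have hxy : Tr S (i + 2) ≤ S.r (i + 1) * (1 + th (S.h i)) := by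
    have h6 : S.r (i + 2) ≤ S.r (i + 1) * (1 - 12 * th (S.h (i + 1))) := (S.nxt (i + 1)).r_le
    have h7 := (H.num (i + 1)).th_pos
    nlinarith [mul_pos hr1 hθi, mul_pos hr1 h7]
  have hyt : S.r (i + 1) * (1 + th (S.h i)) ≤ t₀ := by
    nlinarith [mul_pos hr1 hθi]
  have hg := hgrow i' _ (i' + 2) _ ⟨hy1, hy2⟩ hyt ⟨(Tr_anti_le H (i + 2)), le_rfl⟩ hxy
  rw [chain_h, chain_h] at hg
  refine drop_arith (Λ := Λ) (Ck := Ck) (A' := A') (c := X.c) (e' := X.e') (h := S.h (i + 1))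
    (g := S.h i) (θ := th (S.h i)) (y := S.r (i + 1) * (1 + th (S.h i))) (x := Tr S (i + 2))
    hΛ H.Ck_one hA' hc hc1 he' he'c hh1 (H.hle (i + 1)) hh0 htop (H.hle i) hth (by linarith) hx0
    hxy ?_ hlow hg ?_
  · have h7 : A' * S.r (i + 2) ≤ A' * (12 / 11 * Tr S (i + 2)) := by gcongr; linarith
    have hAx : 0 < A' * Tr S (i + 2) := by positivity
    calc S.r (i + 1) * (1 + th (S.h i)) ≤ (A' * (12 / 11 * Tr S (i + 2))) * (1 + 1 / 120) := by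
          have : S.r (i + 1) ≤ A' * (12 / 11 * Tr S (i + 2)) := by linarith
          gcongr
      _ ≤ 3 * A' * Tr S (i + 2) := by nlinarith
  · have hCk := H.Ck_one
    have h8 : S.h (i + 2) ^ (1 - X.e') ≤ S.h (i + 1) ^ (1 + X.c / 2) := by
      calc S.h (i + 2) ^ (1 - X.e') ≤ (S.h (i + 1) ^ (1 + X.c)) ^ (1 - X.e') :=
            Real.rpow_le_rpow hh2.le hdrop (by linarith)
        _ = S.h (i + 1) ^ ((1 + X.c) * (1 - X.e')) := by rw [← Real.rpow_mul hh1.le]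
        _ ≤ _ := H.pw (i + 1) (by nlinarith)
    refine hup.trans ?_
    gcongr

/-- **each window is longer than any factor** -/
theorem long {k' : ℝ → ℝ} {B : ℝ} (hk : Ker k k' K B) (H : Fc k Ck η₀ b A τ P S)
    (hL : BABS.Limit (BINST.chain k K b A e P S k₀) M₀ Λ) (A' : ℝ) :
    ∀ᶠ j in atTop, A' * S.r (j + 1) ≤ S.r j := by
  wlog hA' : 1 ≤ A' generalizing A'
  · filter_upwards [this 1 le_rfl] with j hj
    refine le_trans ?_ hj
    have := S.r_pos (j + 1)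
    have := (not_le.1 hA').le
    gcongr
  have hok := H.ctx.ok
  have hβ := hok.β_pos
  have hc := hok.c_pos
  have hc5 := H.c₅_pos
  have hΛ : 1 ≤ Λ := hL.one_lt.le.trans hL.le
  obtain ⟨t₀, ht₀, hgrow⟩ := hL.grow
  obtain ⟨ε₁, hε₁, hε₁1, hth⟩ := INST.exists_th_small (a := X.c / 16) (by positivity) 1 (η := 1)
    one_pos
  set D : ℝ := 4 * Ck ^ 2 * Λ * (3 * A') ^ Λ with hD
  have hD0 : 0 < D := by have := H.Ck_one; positivity
  have hcr : ∀ᶠ j in atTop, S.h j ^ (X.c / 8) < D⁻¹ := by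
    filter_upwards [ev_h_pow S hβ (a := X.c / 8) (by positivity) (η := D⁻¹ / 2) (by positivity)]
      with j hj
    refine hj.trans_lt ?_
    have : 0 < D⁻¹ := by positivity
    linarith
  have hcr2 : ∀ᶠ j in atTop, S.h j ^ X.c₅ ≤ A'⁻¹ :=
    ev_h_pow S hβ hc5 (by positivity)
  have hcr3 : ∀ᶠ j in atTop, S.h j ^ X.c₅ ≤ 11 / 12 :=
    ev_h_pow S hβ (by positivity) (by norm_num)
  have hcr4 : ∀ᶠ j in atTop, S.h j ≤ ε₁ :=
    ((h_lim S hβ).eventually (gt_mem_nhds hε₁)).mono fun j hj => hj.le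
  have hcr5 : ∀ᶠ j in atTop, S.r j ≤ t₀ / 2 :=
    (S.r_lim.eventually (gt_mem_nhds (by positivity : (0:ℝ) < t₀ / 2))).mono fun j hj => hj.le
  -- shift by one
  suffices hmain : ∀ᶠ i in atTop, A' * S.r (i + 1 + 1) ≤ S.r (i + 1) by
    obtain ⟨N, hN⟩ := eventually_atTop.1 hmain
    refine eventually_atTop.2 ⟨N + 1, fun j hj => ?_⟩
    obtain ⟨i, rfl⟩ : ∃ i, j = i + 1 := ⟨j - 1, by omega⟩
    exact hN i (by omega)
  have s1 := (tendsto_add_atTop_nat 1).eventually hcr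
  have s2 := (tendsto_add_atTop_nat 1).eventually hcr2
  have s5 := (tendsto_add_atTop_nat 1).eventually hcr5
  have s6 := (tendsto_add_atTop_nat 2).eventually hcr3
  filter_upwards [s1, s2, hcr4, s5, s6, eventually_ge_atTop k₀] with i c1 c2 c4 c5 c3 hik
  have hr1 := H.rpos (i + 1)
  rcases (S.nxt (i + 1)).h_next with hdrop | hlong
  swap
  · show A' * S.r (i + 1 + 1) ≤ S.r (i + 1)
    rw [hlong]
    calc A' * (S.r (i + 1) * S.h (i + 1) ^ X.c₅) ≤ A' * (S.r (i + 1) * A'⁻¹) := by gcongr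
      _ = S.r (i + 1) := by field_simp
  by_contra hcon
  obtain ⟨i', rfl⟩ : ∃ i', i = k₀ + i' := ⟨i - k₀, by omega⟩
  obtain ⟨hθi, hthi⟩ := hth (S.h (k₀ + i')) (H.hpos _) c4
  rw [one_mul, pow_one] at hthi
  have hD' := H.long_step hk hA' hΛ hgrow hthi c3 c5 (by
    rw [S.h_eq (k₀ + i' + 2)]; exact hdrop) (not_le.1 hcon)
  have hh1 := H.hpos (k₀ + i' + 1)
  rw [Real.rpow_neg hh1.le] at hD'
  have h6 := Real.rpow_pos_of_pos hh1 (X.c / 8)
  have h7 : S.h (k₀ + i' + 1) ^ (X.c / 8) < D⁻¹ := c1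
  rw [lt_inv_comm₀ h6 hD0] at h7
  exact absurd hD' (not_le.2 h7)

/-- the chain is long -/
theorem chain_long {k' : ℝ → ℝ} {B : ℝ} (hk : Ker k k' K B) (H : Fc k Ck η₀ b A τ P S)
    (hL : BABS.Limit (BINST.chain k K b A e P S k₀) M₀ Λ) :
    BABS.Long (BINST.chain k K b A e P S k₀) := by
  intro A'
  have h1 := H.long hk hL (2 * |A'|)
  obtain ⟨N, hN⟩ := eventually_atTop.1 h1
  refine eventually_atTop.2 ⟨N, fun i hi => ?_⟩
  have h2 := hN (k₀ + i) (by omega)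
  show A' * Tr S (k₀ + i + 1) ≤ Tr S (k₀ + i)
  have h3 := (H.num (k₀ + i)).Tr_le
  have h4 := (H.num (k₀ + i)).Tr_pos
  have h5 : 11 / 12 * S.r (k₀ + i) ≤ Tr S (k₀ + i) := Tr_ge S (k₀ + i)
  have h6 := S.r_pos (k₀ + i + 1)
  calc A' * Tr S (k₀ + i + 1) ≤ |A'| * S.r (k₀ + i + 1) := by
        gcongr
        exact le_abs_self _
    _ ≤ 1 / 2 * S.r (k₀ + i) := by linarith
    _ ≤ _ := by have := S.r_pos (k₀ + i); linarith

end Fc

end Vale.Agent.P214.BPT
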