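import Vale.Agent.P214.BPT.Act
import Vale.Agent.P214.BSEQ.Fin
import Vale.Agent.P214.BSEQ.OfBLOC
import Vale.Agent.P214.BDIM.Props

/-!
# P214, target B, block [B5-PT]: the start

At a singular point with power flatness: the class indices, the unit coordinates, the windows
sequence, the facts `Fc` on it and a good chain (`exists_start`).
-/

open Set Filter Topology MeasureTheory Metric
open scoped RealInnerProductSpace ENNReal ContDiff

set_option linter.all false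

namespace Vale.Agent.P214.BPT

open WIN FM BINST
open WSEQ (th)
open BSEQ (Exps WSeq LocB)

variable {m n : ℕ} {E : Type*} [NormedAddCommGroup E] [InnerProductSpace ℝ E]
  [FiniteDimensional ℝ E] [MeasurableSpace E] [BorelSpace E]

/-- the data of power flatness for smaller exponent, larger constant and smaller radius -/
lemma pf_mono {U : Set E} {V : IntegralVarifold m U} {x : E} {T : Submodule ℝ E} {Q : ℕ}
    {β C r₀ β' C' r₀' : ℝ} (h : BLOC.PF V x T Q β C r₀) (hβ : 0 < β') (hββ : β' ≤ β)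
    (hC : C ≤ C') (hr : 0 < r₀') (hrr : r₀' ≤ r₀) (hr1 : r₀' ≤ 1) :
    BLOC.PF V x T Q β' C' r₀' := by
  have hC0 := h.C_nonneg
  obtain ⟨h1, h2, h3, h4, h5⟩ := h
  refine ⟨h1, h2, hβ, hr, fun r hr0 hrr' => ?_⟩
  obtain ⟨a1, a2, a3⟩ := h5 r hr0 (hrr'.trans hrr)
  have hr1' : r ≤ 1 := hrr'.trans hr1
  have e1 : C * r ^ (1 + β) ≤ C' * r ^ (1 + β') := by
    have := Real.rpow_le_rpow_of_exponent_ge hr0 hr1' (by linarith : 1 + β' ≤ 1 + β)
    exact mul_le_mul hC this (by positivity) (hC0.trans hC)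
  have e2 : C * r ^ ((m : ℝ) + β) ≤ C' * r ^ ((m : ℝ) + β') := by
    have := Real.rpow_le_rpow_of_exponent_ge hr0 hr1' (by linarith : (m : ℝ) + β' ≤ (m : ℝ) + β)
    exact mul_le_mul hC this (by positivity) (hC0.trans hC)
  exact ⟨fun y hy => (a1 y hy).trans e1, a2.trans e2, a3.trans e2⟩

/-- **[PT6]**: the start at a singular point with power flatness -/
theorem exists_start {k k' K : ℝ → ℝ} {B : ℝ} (hk : INST.Ker k k' K B) (hm : 1 ≤ m)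
    (hE : Module.finrank ℝ E = m + n) (hR : ∀ Q, 1 ≤ Q → BINST.RefsStmt E m n Q)
    (hC : ∀ Q, 1 ≤ Q → BINST.CylStmt E m n Q) (hG : ∀ Q, 1 ≤ Q → BINST.GoodStmt E m n Q k K)
    {U : Set E} (hU : IsOpen U) (V : IntegralVarifold m U) (hV : V.IsStationary) {x : E}
    (hx : x ∈ V.sing) (hpf : V.PowerFlat x) :
    ∃ Q : ℕ, 1 ≤ Q ∧ ∀ η₀ : ℝ, 0 < η₀ → η₀ ≤ eps0 →
      ∃ (i j : ℕ) (T : Submodule ℝ E) (F : Frame m n T) (Ck b A τ C ε : ℝ) (X : Exps)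
        (S : WSeq m n Q T F (BDIM.nuX V T x j) X C ε) (k₀ : ℕ) (e : ℕ → ℝ),
        BLOC.PF V x T Q (1 / ((i : ℝ) + 1)) i (1 / ((i : ℝ) + 1)) ∧
        closedBall x (2 * (1 / 2) ^ j) ⊆ U ∧
        BLOC.LocB m Q T (BDIM.nuX V T x j) (BDIM.PX V x j) (1 / ((i : ℝ) + 1)) (1 / 64) ∧
        Fc k Ck η₀ b A τ (BDIM.PX V x j) S ∧
        BABS.Good (BINST.chain k K b A e (BDIM.PX V x j) S k₀) b A := by
  obtain ⟨T, Q, β, C₀, r₀, hPF⟩ := BLOC.powerFlat_iff.1 hpf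
  have hT := hPF.1
  have hQ := hPF.2.1
  have hβ := hPF.2.2.1
  have hr₀ := hPF.2.2.2.1
  refine ⟨Q, hQ, fun η₀ hη₀ hη₀' => ?_⟩
  -- the index `i`
  obtain ⟨i, hi⟩ := exists_nat_ge (max (max 1 C₀) (max (1 / β) (1 / r₀)))
  have hi1 : (1:ℝ) ≤ i := (le_max_left _ _).trans ((le_max_left _ _).trans hi)
  have hiC : C₀ ≤ i := (le_max_right _ _).trans ((le_max_left _ _).trans hi)
  have hiβ : 1 / β ≤ i := (le_max_left _ _).trans ((le_max_right _ _).trans hi)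
  have hir : 1 / r₀ ≤ i := (le_max_right _ _).trans ((le_max_right _ _).trans hi)
  set β' : ℝ := 1 / ((i : ℝ) + 1) with hβ'
  have hβ'0 : 0 < β' := by positivity
  have hβ'2 : β' ≤ 1 / 2 := by
    rw [hβ']
    exact one_div_le_one_div_of_le (by norm_num) (by linarith)
  have hβ'β : β' ≤ β := by
    rw [hβ', div_le_iff₀ (by positivity)]
    rw [div_le_iff₀ hβ] at hiβ
    nlinarith
  have hβ'r : β' ≤ r₀ := by
    rw [hβ', div_le_iff₀ (by positivity)]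
    rw [div_le_iff₀ hr₀] at hir
    nlinarith
  have hPF' : BLOC.PF V x T Q β' i β' :=
    pf_mono hPF hβ'0 hβ'β hiC hβ'0 hβ'r (hβ'2.trans (by norm_num))
  -- the frame
  obtain ⟨F⟩ := WIN.exists_frame (n := n) hT (by omega)
  -- the constants
  obtain ⟨X, hX, hXβ, C, hC1, hWin⟩ := BSEQ.windowsStmt E n hm hQ β' hβ'0 hβ'2
  obtain ⟨Ck, -, hFc⟩ := ev_fc hk hη₀ hη₀' (hR Q hQ) (hC Q hQ)
  obtain ⟨b₁, hb₁, hFc⟩ := hFc X C
  obtain ⟨b₂, hb₂, hGd⟩ := hG Q hQ X C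
  set b : ℝ := min (min b₁ b₂) 1 with hb
  have hb0 : 0 < b := lt_min (lt_min hb₁ hb₂) one_pos
  have hbb₁ : b ≤ b₁ := (min_le_left _ _).trans (min_le_left _ _)
  have hbb₂ : b ≤ b₂ := (min_le_left _ _).trans (min_le_right _ _)
  have hb1 : b ≤ 1 := min_le_right _ _
  obtain ⟨A₁, hA₁, hFc⟩ := hFc b hb0 hbb₁ hb1
  obtain ⟨A₂, hA₂, hGd⟩ := hGd b hb0 hbb₂
  obtain ⟨ε₁, hε₁, hFc⟩ := hFc (max A₁ A₂) (le_max_left _ _)
  obtain ⟨ε₂, hε₂, hGd⟩ := hGd (max A₁ A₂) (le_max_right _ _)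
  set ε : ℝ := min ε₁ ε₂ with hε
  have hε0 : 0 < ε := lt_min hε₁ hε₂
  obtain ⟨τ, hτ, hτε, hWin⟩ := hWin ε hε0
  -- the unit coordinates
  have hτ' : 0 < min τ (1 / 64) := lt_min hτ (by norm_num)
  have hev := BLOC.exists_locB hPF' hU hV hx.1 hτ'
  have hlim : Tendsto (fun j : ℕ => ((1:ℝ) / 2) ^ j) atTop (𝓝[>] (0:ℝ)) :=
    tendsto_nhdsWithin_iff.2 ⟨tendsto_pow_atTop_nhds_zero_of_lt_one (by norm_num) (by norm_num),
      Eventually.of_forall fun j => by simp⟩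
  obtain ⟨j, hj0, hjU, hloc⟩ := (hlim.eventually hev).exists
  have hlocB : BSEQ.LocB m Q T (BDIM.nuX V T x j) (BDIM.PX V x j) β' (min τ (1 / 64)) :=
    BSEQ.locB_of hloc
  have hloc1 : BSEQ.LocB m Q T (BDIM.nuX V T x j) (BDIM.PX V x j) β' τ :=
    hlocB.mono (min_le_left _ _)
  have hirr : ∀ ρ, 0 < ρ → ∀ w : E → E, ¬ ALL.OnGraph T (BDIM.nuX V T x j) ρ w :=
    fun ρ hρ w => BLOC.not_onGraph hU hV hj0 hjU hx hT (by positivity) hρ w
  rcases hWin T F _ _ hloc1 with ⟨ρ, hρ, w, hw⟩ | ⟨⟨S⟩⟩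
  · exact absurd hw (hirr ρ hρ w)
  have hctx : Ctx (BDIM.PX V x j) τ S :=
    ⟨hm, hQ, hX, hXβ ▸ hloc1, hC1, hε0, hτ, hτε, hirr⟩
  obtain ⟨k₀, e, hgood⟩ := hGd T F _ _ ε τ S hctx (min_le_right _ _) hb1
  exact ⟨i, j, T, F, Ck, b, max A₁ A₂, τ, C, ε, X, S, k₀, e, hPF', hjU,
    BSEQ.locB_to (hlocB.mono (min_le_right _ _)), hFc T F _ _ ε τ S hctx (min_le_left _ _), hgood⟩

end Vale.Agent.P214.BPT
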